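import Vale.Agent.P251CY.Lay

/-!
# The compact statement layer agrees with the old one
-/

open CategoryTheory MonoidalCategory

noncomputable section

namespace Vale.Agent.P251CY

open Vale.Agent.P251.St Vale.Agent.P251.St.SHCat

variable {T : SHCat} {S : Susp T}

/-- the old form of a ring spectrum -/
abbrev RingSp.toOld (R : RingSp T) : P251.St.RingSp T := ⟨R.obj⟩

/-- the new form of a ring spectrum -/
abbrev RingSp.ofOld (R : P251.St.RingSp T) : RingSp T := ⟨R.obj⟩

theorem RingSp.toOld_ofOld (R : P251.St.RingSp T) : (RingSp.ofOld R).toOld = R := rfl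

theorem RingSp.ofOld_toOld (R : RingSp T) : RingSp.ofOld R.toOld = R := rfl

variable {R : RingSp T}

theorem isPair_iff {n : ℕ} {A : Type} [Fintype A] {X : Space} (f : Map X (Th n A))
    (P : X.carrier → Matrix A A ℂ) (v : X.carrier → A → ℂ) :
    IsPair f P v ↔ P251.St.IsPair P v f := Iff.rfl

theorem isAppend_iff {r k : ℕ} (g : Map ((Cn r).prod (Cn k)) (Cn (r + k))) :
    IsAppend g ↔ P257.St.IsAppend g := Iff.rfl

theorem pLocal_iff (p : ℕ) (X : T.C) : PLocal p X ↔ P257.St.PLocal p X := Iff.rfl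

theorem isCross_iff {n m : ℕ} {X Y : Space} (x : Coh S R n X) (y : Coh S R m Y)
    (z : Coh S R (n + m) (X.prod Y)) :
    IsCross x y z ↔ P251.St.IsCross (S := S) (R := R.toOld) x y z := Iff.rfl

/-- the old form of an orientation -/
abbrev Oriented.toOld (o : Oriented S R) : P251.St.Oriented S R.toOld :=
  ⟨o.θ, o.isom, o.sum, o.fibre⟩

/-- the new form of an orientation -/
abbrev Oriented.ofOld (o : P251.St.Oriented S R.toOld) : Oriented S R :=
  ⟨o.θ, o.isom, o.sum, o.fibre⟩

theorem Oriented.toOld_ofOld (o : P251.St.Oriented S R.toOld) : (Oriented.ofOld o).toOld = o := rfl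

theorem Oriented.ofOld_toOld (o : Oriented S R) : Oriented.ofOld o.toOld = o := rfl

theorem isScale_iff {r k : ℕ} {Y : Space} (c : PiR S R k) (u : Coh S R (r + k) Y)
    (w : Coh S R r Y) :
    IsScale c u w ↔ P257.St.IsScale (S := S) (R := R.toOld) c u w := by
  refine forall_congr' fun g => imp_congr Iff.rfl ?_
  simp only [Category.assoc]

theorem isProd_iff {n m : ℕ} (x : PiR S R n) (y : PiR S R m) (z : PiR S R (n + m)) :
    IsProd x y z ↔ P257.St.IsProd (S := S) (R := R.toOld) x y z := by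
  refine forall_congr' fun g => imp_congr Iff.rfl ?_
  simp only [Category.assoc]

theorem isLaw_iff (o : Oriented S R) (a : ∀ k : ℕ, ℕ → PiR S R k) :
    IsLaw o a ↔ P257.St.IsLaw o.toOld a :=
  forall_congr' fun _ => forall_congr' fun _ => forall_congr' fun _ => imp_congr Iff.rfl <|
    imp_congr Iff.rfl <| exists_congr fun _ => and_congr (forall_congr' fun _ =>
      imp_congr Iff.rfl <| forall_congr' fun _ => imp_congr Iff.rfl (isScale_iff _ _ _)) Iff.rfl

theorem isHaz_iff (p : ℕ) (F : MvPowerSeries (Fin 2) (MvPolynomial ℕ ℤ)) :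
    IsHaz p F ↔ P257.St.IsHaz p F := ⟨fun h => ⟨h.1, h.2⟩, fun h => ⟨h.1, h.2⟩⟩

variable {p : ℕ}

/-- the old form of a family of homomorphisms -/
abbrev GHom.toOld (φ : GHom S p R) : P257.St.GHom S p R.toOld :=
  fun n => AddMonoidHom.mk' φ.val (φ.add n)

/-- the new form of a family of homomorphisms -/
abbrev GHom.ofOld (φ : P257.St.GHom S p R.toOld) : GHom S p R :=
  ⟨fun x => φ.val x, fun n => map_add (φ n)⟩

theorem GHom.toOld_ofOld (φ : P257.St.GHom S p R.toOld) : (GHom.ofOld φ).toOld = φ := rfl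

theorem GHom.ofOld_toOld (φ : GHom S p R) : GHom.ofOld φ.toOld = φ := rfl

theorem GHom.toOld_val (φ : GHom S p R) {n : ℕ} (x : VPoly p n) : φ.toOld.val x = φ.val x := rfl

theorem isPTyp_iff (o : Oriented S R) (φ : GHom S p R) :
    IsPTyp p o φ ↔ P257.St.IsPTyp p o.toOld φ.toOld := by
  constructor
  · intro h
    obtain ⟨F, a, h1, h2, h3⟩ := h.law
    exact ⟨h.isLocal, h.one, fun n m x y z e => (isProd_iff _ _ _).1 (h.mul n m x y z e),
      F, a, (isHaz_iff _ _).1 h1, (isLaw_iff _ _).1 h2, h3⟩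
  · intro h
    obtain ⟨F, a, h1, h2, h3⟩ := h.law
    exact ⟨h.isLocal, h.one, fun n m x y z e => (isProd_iff _ _ _).2 (h.mul n m x y z e),
      F, a, (isHaz_iff _ _).2 h1, (isLaw_iff _ _).2 h2, h3⟩

theorem vEl_eq (p i : ℕ) : vEl p i = P257.St.vEl p i := by
  cases i <;> rfl

theorem vEl_eq' (p : ℕ) : vEl p = P257.St.vEl p := funext (vEl_eq p)

end Vale.Agent.P251CY
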