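import Vale.Agent.P251CY.JW
import Vale.Agent.P251CY.Br

/-!
# The compact forms of `IsMorava`, `IsLoc`, `IsJW`, `NoRetractionJW` agree with the old ones
-/

open CategoryTheory MonoidalCategory

noncomputable section

namespace Vale.Agent.P251CY

open Vale.Agent.P251.St Vale.Agent.P251.St.SHCat

variable {T : SHCat} {S : Susp T} {R : RingSp T}

theorem isPeriodicField_iff (p : ℕ) (d : ℤ) :
    IsPeriodicField R p d ↔ P251.St.IsPeriodicField R.toOld p d :=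
  ⟨fun h => ⟨h.1, h.2, h.3, h.4⟩, fun h => ⟨h.1, h.2, h.3, h.4⟩⟩

theorem hasPSeries_iff (p N : ℕ) (o : Oriented S R) :
    HasPSeries p N o ↔ P251.St.HasPSeries S R.toOld p N o.toOld := Iff.rfl

theorem isRational_iff : IsRational R ↔ P251.St.IsRational R.toOld :=
  ⟨fun h => ⟨h.1, h.2, h.3, h.4⟩, fun h => ⟨h.1, h.2, h.3, h.4⟩⟩

theorem isMorava_iff (p n : ℕ) : IsMorava S R p n ↔ P251.St.IsMorava S R.toOld p n := by
  rw [P251.St.IsMorava, IsMorava]
  split_ifs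
  · exact isRational_iff
  · exact and_congr (isPeriodicField_iff _ _)
      ⟨fun ⟨o, h⟩ => ⟨o.toOld, h⟩, fun ⟨o, h⟩ => ⟨Oriented.ofOld o, h⟩⟩

theorem acyclic_iff (E W : T.C) : Acyclic E W ↔ P251.St.Acyclic E W := Iff.rfl

theorem isLoc_iff (E : T.C) {X Y : T.C} (f : Hom X Y) : IsLoc E f ↔ P251.St.IsLoc E f := Iff.rfl

theorem hazV_eq {p : ℕ} (φ : GHom S p R) (i : ℕ) : hazV φ i = P257.St.hazV φ.toOld i :=
  congrArg φ.val (Subtype.ext (vEl_eq p i))

theorem isJW_iff (p n : ℕ) (o : Oriented S R) (φ : GHom S p R) :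
    IsJW p n o φ ↔ P251Z.IsJW p n o.toOld φ.toOld := by
  constructor
  · intro h
    refine ⟨(isPTyp_iff _ _).1 h.typ, h.odd, hazV_eq φ n ▸ h.inv, fun k y => ?_,
      vEl_eq' p ▸ h.ker⟩
    obtain ⟨m, j, d, u, x, h1, h2, h3⟩ := h.gen k y
    exact ⟨m, j, d, u, x, h1, vEl_eq p n ▸ h2, (isProd_iff _ _ _).1 h3⟩
  · intro h
    refine ⟨(isPTyp_iff _ _).2 h.typ, h.odd, (hazV_eq φ n).symm ▸ h.inv, fun k y => ?_,
      (vEl_eq' p).symm ▸ h.ker⟩
    obtain ⟨m, j, d, u, x, h1, h2, h3⟩ := h.gen k y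
    exact ⟨m, j, d, u, x, h1, (vEl_eq p n).symm ▸ h2, (isProd_iff _ _ _).2 h3⟩

theorem isClassE_iff (n : ℕ) (K : ℕ → RingSp T) (E : T.C) :
    IsClassE n K E ↔ P251.St.IsClassE n (fun i => (K i).toOld) E := Iff.rfl

theorem exists_classE_iff (S : Susp T) (p n : ℕ) :
    (∃ K : ℕ → RingSp T, (∀ i, IsMorava S (K i) p i) ∧ ∃ E : T.C, IsClassE n K E) ↔
      ∃ K : ℕ → P251.St.RingSp T, (∀ i, P251.St.IsMorava S (K i) p i) ∧
        ∃ E : T.C, P251.St.IsClassE n K E :=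
  ⟨fun ⟨K, h, E, h'⟩ => ⟨fun i => (K i).toOld, fun i => (isMorava_iff p i).1 (h i), E, h'⟩,
    fun ⟨K, h, E, h'⟩ => ⟨fun i => RingSp.ofOld (K i), fun i => (isMorava_iff p i).2 (h i), E, h'⟩⟩

theorem noRetraction_iff (S : Susp T) (p n : ℕ) :
    NoRetraction S p n ↔ P251.St.NoRetraction S p n := by
  constructor
  · intro h K E M a b Sp X Z Y c l z y i hK hE
    exact h (fun j => RingSp.ofOld (K j)) E (fun j hj => (isMorava_iff p j).2 (hK j hj)) hE
      M a b Sp X Z Y c l z y i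
  · intro h K E hK hE M a b Sp X Z Y c l z y i
    exact h (fun j => (K j).toOld) E M a b Sp X Z Y c l z y i
      (fun j hj => (isMorava_iff p j).1 (hK j hj)) hE

theorem noRetractionJW_iff (S : Susp T) (p n : ℕ) :
    NoRetractionJW S p n ↔ P251Z.NoRetractionJW S p n := by
  constructor
  · intro h K E o φ M a b Sp X Z Y c l z y i hK hE
    exact h (RingSp.ofOld K) (RingSp.ofOld E) (Oriented.ofOld o) (GHom.ofOld φ)
      ((isMorava_iff p n).2 hK) ((isJW_iff _ _ _ _).2 hE) M a b Sp X Z Y c l z y i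
  · intro h K E o φ hK hE M a b Sp X Z Y c l z y i
    exact h K.toOld E.toOld o.toOld φ.toOld M a b Sp X Z Y c l z y i
      ((isMorava_iff p n).1 hK) ((isJW_iff _ _ _ _).1 hE)

end Vale.Agent.P251CY
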