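import Vale.Agent.P257.H80.StBP

/-!
# Statement layer (compact form): complex orientations and `p`-typical formal group laws

The same definitions as in `P251/St/Chrom.lean`, `P257/H702/Statement.lean`,
`P257/H702/LawDef.lean` and `P257/H80/StBP.lean`, written with short auxiliary names.
-/

open CategoryTheory MonoidalCategory OnePoint Matrix

noncomputable section

namespace Vale.Agent.P251CY

open Vale.Agent.P251.St Vale.Agent.P251.St.SHCat Vale.Agent.P257

/-! ### Thom spaces of the tautological bundles -/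

/-- The space `ℂ^n` (`(ℂ^n)⁺` is the sphere of dimension `2 n`). -/
abbrev Cn (n : ℕ) : Space := ⟨Fin n → ℂ⟩

section

variable (n : ℕ) (A : Type) [Fintype A]

/-- `P` is an orthogonal projection of rank `n` of `ℂ^A`. -/
def IsProj {A : Type} [Fintype A] (P : Matrix A A ℂ) : Prop :=
  P * P = P ∧ Pᴴ = P ∧ P.trace = n

/-- The total space of the tautological bundle over the Grassmannian of `n`-dimensional subspaces
of `ℂ^A`: pairs `(P, v)` of a projection and a vector in its image. -/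
abbrev ThSet : Set (Matrix A A ℂ × (A → ℂ)) := {x | IsProj n x.1 ∧ x.1 *ᵥ x.2 = x.2}

/-- The projective space of `ℂ^A`: projections of rank one. -/
abbrev CPSet : Set (Matrix A A ℂ) := {P | IsProj 1 P}

theorem lc_th : LocallyCompactSpace (ThSet n A) := P251.St.lc_th n A

theorem lc_cp : LocallyCompactSpace (CPSet A) := P251.St.lc_cp A

/-- The Thom space of the tautological bundle is `(Th n A)⁺`. -/
def Th : Space := @Space.mk (ThSet n A) _ (lc_th n A) _

/-- The projective space of `ℂ^A`. -/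
def CP : Space := @Space.mk (CPSet A) _ (lc_cp A) _

/-- The square of the projective space. -/
abbrev PP : Space := (CP A).prod (CP A)

variable {n A}

/-- the pair `(P, v)` of a point of the total space -/
abbrev pv (x : (Th n A).carrier) : Matrix A A ℂ × (A → ℂ) := x.1

/-- the projection `P` of a point of the projective space -/
abbrev mat (x : (CP A).carrier) : Matrix A A ℂ := x.1

/-- `f : X⁺ → (Th n A)⁺` is the map `x ↦ (P x, v x)`. -/
def IsPair {X : Space} (f : Map X (Th n A)) (P : X.carrier → Matrix A A ℂ)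
    (v : X.carrier → A → ℂ) : Prop :=
  ∀ x, ∃ y, f.toFun (Space.pt x) = Space.pt y ∧ pv y = (P x, v x)

/-- `f : X⁺ → (Th n A)⁺` is the map `x ↦ (P x, 0)`. -/
abbrev IsSec {X : Space} (f : Map X (Th n A)) (P : X.carrier → Matrix A A ℂ) : Prop :=
  IsPair f P fun _ => 0

end

/-- `g : (ℂ^r)⁺ ∧ (ℂ^k)⁺ → (ℂ^{r+k})⁺` is the standard homeomorphism. -/
def IsAppend {r k : ℕ} (g : Map ((Cn r).prod (Cn k)) (Cn (r + k))) : Prop :=
  ∀ a b, g.toFun (Space.pt (a, b)) = Space.pt (Fin.append a b)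

/-! ### Ring spectra and their cohomology -/

variable {T : SHCat}

/-- A homotopy commutative ring spectrum. -/
structure RingSp (T : SHCat) where
  /-- the underlying spectrum -/
  obj : T.C
  [mon : MonObj obj]
  [comm : IsCommMonObj obj]

attribute [instance] RingSp.mon RingSp.comm

/-- the multiplication -/
abbrev RingSp.mul (R : RingSp T) : Hom (ten R.obj R.obj) R.obj := MonObj.mul

/-- the unit -/
abbrev RingSp.unit (R : RingSp T) : Hom T.one R.obj := MonObj.one

/-- the zero morphism -/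
abbrev nul (A B : T.C) : Hom A B := 0

/-- the multiple `a f` of a morphism by an integer -/
abbrev zmul {A B : T.C} (a : ℤ) (f : Hom A B) : Hom A B := a • f

/-- the sum `w 0 + ⋯ + w (n - 1)` -/
abbrev hsum {A B : T.C} (n : ℕ) (w : ℕ → Hom A B) : Hom A B := ∑ k ∈ Finset.range n, w k

/-- the sphere of dimension `k` -/
abbrev sphere (T : SHCat) (k : ℤ) : T.C := T.one⟦k⟧

/-- the interchange `(A ⊗ B) ⊗ (C ⊗ D) ⟶ (A ⊗ C) ⊗ (B ⊗ D)` -/
abbrev exch (A B C D : T.C) : Hom (ten (ten A B) (ten C D)) (ten (ten A C) (ten B D)) :=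
  tensorμ A B C D

/-- the morphism `A ⊗ f` -/
abbrev tenL (A : T.C) {B B' : T.C} (f : Hom B B') : Hom (ten A B) (ten A B') := A ◁ f

/-- the morphism `f ⊗ A` -/
abbrev tenR {B B' : T.C} (f : Hom B B') (A : T.C) : Hom (ten B A) (ten B' A) := f ▷ A

/-- the associativity `A ⊗ (B ⊗ D) ⟶ (A ⊗ B) ⊗ D` -/
abbrev assocInv (A B D : T.C) : Hom (ten A (ten B D)) (ten (ten A B) D) :=
  Iso.inv (X := ten (ten A B) D) (Y := ten A (ten B D)) (α_ A B D)

/-- `X` is `p`-local: the integers prime to `p` are invertible on `X`. -/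
def PLocal (p : ℕ) (X : T.C) : Prop := ∀ m : ℤ, ¬ (p : ℤ) ∣ m → IsIso (zmul m (ident X))

variable (S : Susp T) (R : RingSp T)

/-- The sphere of dimension `2 n`. -/
abbrev Sn (n : ℕ) : T.C := S.obj (Cn n)

/-- The homotopy group `π_{2n} R`. -/
abbrev PiR (n : ℕ) : Type := Hom (Sn S n) R.obj

/-- The cohomology group `R^{2n}(X⁺)`. -/
abbrev Coh (n : ℕ) (X : Space) : Type := Hom (S.obj X) (ten R.obj (Sn S n))

/-- the map `S^{2r} ⊗ S^{2k} ⟶ S^{2(r+k)}` induced by `g` -/
abbrev join {r k : ℕ} (g : Map ((Cn r).prod (Cn k)) (Cn (r + k))) :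
    Hom (ten (Sn S r) (Sn S k)) (Sn S (r + k)) := comp (S.mul _ _) (S.map g)

/-- the map `(R ⊗ A) ⊗ (R ⊗ B) ⟶ R ⊗ D` induced by the multiplication and `m : A ⊗ B ⟶ D` -/
abbrev cup {A B D : T.C} (m : Hom (ten A B) D) :
    Hom (ten (ten R.obj A) (ten R.obj B)) (ten R.obj D) :=
  comp (exch _ _ _ _) (tenHom R.mul m)

/-- the map `(E ⊗ A) ⊗ B ⟶ E ⊗ D` induced by `m : A ⊗ B ⟶ D` -/
abbrev under (E : T.C) {A B D : T.C} (m : Hom (ten A B) D) : Hom (ten (ten E A) B) (ten E D) :=
  comp (assoc E A B) (tenL E m)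

/-- the left action `R ⊗ (R ⊗ B) ⟶ R ⊗ B` -/
abbrev lact (B : T.C) : Hom (ten R.obj (ten R.obj B)) (ten R.obj B) :=
  comp (assocInv _ _ B) (tenR R.mul B)

variable {S R}

/-- the pull back of a cohomology class -/
abbrev pb {n : ℕ} {X Y : Space} (f : Map X Y) (u : Coh S R n Y) : Coh S R n X := comp (S.map f) u

/-- `z ∈ R^{2(n+m)}(X⁺ ∧ Y⁺)` is the external product of `x ∈ R^{2n}(X⁺)` and `y ∈ R^{2m}(Y⁺)`. -/
def IsCross {n m : ℕ} {X Y : Space} (x : Coh S R n X) (y : Coh S R m Y)
    (z : Coh S R (n + m) (X.prod Y)) : Prop :=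
  ∀ g, IsAppend g → comp (S.mul X Y) z = comp (tenHom x y) (cup R (join S g))

variable (S R) in
/-- A complex orientation of the ring spectrum `R`: a multiplicative family of Thom classes
`θ n A ∈ R^{2n}(Th n A)` of the tautological bundles, compatible with isometries and direct sums
and normalised on the fibre `ℂ^n`. -/
structure Oriented where
  /-- the Thom classes -/
  θ (n : ℕ) (A : Type) [Fintype A] : Coh S R n (Th n A)
  isom : ∀ {n : ℕ} {A B : Type} [Fintype A] [Fintype B] [DecidableEq A] (u : Matrix B A ℂ)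
    (f : Map (Th n A) (Th n B)), uᴴ * u = 1 →
    IsPair f (fun x => u * (pv x).1 * uᴴ) (fun x => u *ᵥ (pv x).2) → pb f (θ n B) = θ n A
  sum : ∀ {n m : ℕ} {A B : Type} [Fintype A] [Fintype B]
    (f : Map ((Th n A).prod (Th m B)) (Th (n + m) (A ⊕ B))),
    IsPair f (fun x => fromBlocks (pv x.1).1 0 0 (pv x.2).1)
      (fun x => Sum.elim (pv x.1).2 (pv x.2).2) →
    IsCross (θ n A) (θ m B) (pb f (θ (n + m) (A ⊕ B)))
  fibre : ∀ (n : ℕ) (f : Map (Cn n) (Th n (Fin n))), IsPair f (fun _ => 1) (fun x => x) →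
    comp (leftUnit (Sn S n)) (pb f (θ n (Fin n))) = tenHom R.unit (ident (Sn S n))

/-- `w = c u` in `R^{2r}(Y)`, where `c ∈ π_{2k} R` and `u ∈ R^{2(r+k)}(Y)`. (Both sides are
compared after the suspension by `ℂ^k`.) -/
def IsScale {r k : ℕ} {Y : Space} (c : PiR S R k) (u : Coh S R (r + k) Y) (w : Coh S R r Y) :
    Prop :=
  ∀ g, IsAppend g → comp (tenR w (Sn S k)) (under R.obj (join S g)) =
    comp (tenHom u c) (comp (under R.obj (symm _ R.obj)) (lact R _))

/-- `z = x y` for `x ∈ π_{2n} R`, `y ∈ π_{2m} R`. -/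
def IsProd {n m : ℕ} (x : PiR S R n) (y : PiR S R m) (z : PiR S R (n + m)) : Prop :=
  ∀ g, IsAppend g → comp (join S g) z = comp (tenHom x y) R.mul

/-! ### The formal group law of an orientation -/

/-- The equation `F(x, y) = ∑ a k i x ^ i y ^ (k + 1 - i)` (`k < 2 N`) on the square of the
projective space of `ℂ^A`: `t` is the zero section of the tensor product `L ⊗ L'` of the two
tautological line bundles, so that the pull back of the Thom class along `t` is `F(x, y)`, and
`e k i` is the zero section of the sum of `i` copies of `L` and `k + 1 - i` copies of `L'`, so that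
the pull back of the Thom class along `e k i` is `x ^ i y ^ (k + 1 - i)`. -/
def LawOn (o : Oriented S R) (a : ∀ k : ℕ, ℕ → PiR S R k) (N : ℕ) (A : Type) [Fintype A] : Prop :=
  ∀ (t : Map (PP A) (Th 1 (A × A))) (e : ∀ k : ℕ, ℕ → Map (PP A) (Th (1 + k) (Fin (1 + k) × A))),
    IsSec t (fun x i j => mat x.1 i.1 j.1 * mat x.2 i.2 j.2) →
    (∀ k i, IsSec (e k i) fun x b c =>
      if b.1 = c.1 then (if (b.1 : ℕ) < i then mat x.1 b.2 c.2 else mat x.2 b.2 c.2) else 0) →
    ∃ w : ℕ → ℕ → Coh S R 1 (PP A),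
      (∀ k < 2 * N, ∀ i < k + 2, IsScale (a k i) (pb (e k i) (o.θ _ _)) (w k i)) ∧
      pb t (o.θ _ _) = hsum (2 * N) fun k => hsum (k + 2) (w k)

/-- The formal group law of the orientation `o` is `F(x, y) = ∑ a k i x ^ i y ^ (k + 1 - i)`, where
`a k i ∈ π_{2k} R` for `k ≥ 0` and `0 ≤ i ≤ k + 1`: the equation holds on the square of the
projective space of `ℂ^(N + 1)`, where `x ^ (N + 1) = 0 = y ^ (N + 1)`. -/
def IsLaw (o : Oriented S R) (a : ∀ k : ℕ, ℕ → PiR S R k) : Prop :=
  ∀ N, LawOn o a N (Fin (N + 1))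

/-- The polynomials in `ℤ[v_1, v_2, …]` which are homogeneous of degree `2 n`, where
`|v_i| = 2 (p^i - 1)`; the variable `X i` is `v_{i+1}`. -/
abbrev VPoly (p n : ℕ) : Type :=
  MvPolynomial.weightedHomogeneousSubmodule ℤ (fun i : ℕ => p ^ (i + 1) - 1) n

/-- the underlying polynomial -/
abbrev VPoly.pol {p n : ℕ} (x : VPoly p n) : MvPolynomial ℕ ℤ := x.1

/-- `F` is Hazewinkel's formal group law over `ℤ[v_1, v_2, …]`, where `v_{i+1}` is the variable
`X i`: `log F(x, y) = log x + log y` over `ℚ[v_1, v_2, …]` for Hazewinkel's logarithm. -/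
structure IsHaz (p : ℕ) (F : MvPowerSeries (Fin 2) (MvPolynomial ℕ ℤ)) : Prop where
  zero : MvPowerSeries.constantCoeff F = 0
  log : PowerSeries.subst (MvPowerSeries.map (MvPolynomial.map (Int.castRingHom ℚ)) F)
      (H80.hazLog p) =
    PowerSeries.subst (MvPowerSeries.X 0 : MvPowerSeries (Fin 2) (MvPolynomial ℕ ℚ))
        (H80.hazLog p) +
      PowerSeries.subst (MvPowerSeries.X 1 : MvPowerSeries (Fin 2) (MvPolynomial ℕ ℚ))
        (H80.hazLog p)

/-- Families of homomorphisms of groups from the homogeneous polynomials of degree `2 n` in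
`ℤ[v_1, v_2, …]` to `π_{2n} R`. -/
structure GHom (S : Susp T) (p : ℕ) (R : RingSp T) where
  /-- the values -/
  val {n : ℕ} : VPoly p n → PiR S R n
  add : ∀ (n : ℕ) (x y : VPoly p n), val (x + y) = val x + val y

/-- `R` is `p`-local and the complex orientation `o` of `R` is `p`-typical: its formal group law is
the image of Hazewinkel's formal group law under a homomorphism of graded rings
`φ : ℤ[v_1, v_2, …] → π_* R`, `|v_i| = 2 (p ^ i - 1)`. -/
structure IsPTyp (p : ℕ) (o : Oriented S R) (φ : GHom S p R) : Prop where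
  isLocal : PLocal p R.obj
  one : ∀ (a : VPoly p 0) (j : Map Pn (Cn 0)), a.pol = 1 → j.toFun (Space.pt ()) = Space.pt 0 →
    comp S.unit (comp (S.map j) (φ.val a)) = R.unit
  mul : ∀ (n m : ℕ) (x : VPoly p n) (y : VPoly p m) (z : VPoly p (n + m)),
    z.pol = x.pol * y.pol → IsProd (φ.val x) (φ.val y) (φ.val z)
  law : ∃ F a, IsHaz p F ∧ IsLaw o a ∧ ∀ k, ∀ i < k + 2, ∃ x : VPoly p k, x.pol =
    MvPowerSeries.coeff (Finsupp.single 0 i + Finsupp.single 1 (k + 1 - i)) F ∧ a k i = φ.val x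

/-- the elements `v_0 = p, v_1, v_2, …` of `ℤ[v_1, v_2, …]` -/
def vEl (p i : ℕ) : MvPolynomial ℕ ℤ := if i = 0 then p else MvPolynomial.X (i - 1)

end Vale.Agent.P251CY
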