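import Vale.Agent.P251CY.BrJW
import Vale.Agent.P251Z.JWMain
import Vale.Agent.P251.X.KExists

/-!
# The failure of the weak chromatic splitting conjecture at `n = p = 5`, in the compact language
-/

namespace Vale.Agent.P251CY

open Vale.Agent.P251 Vale.Agent.P251.St Vale.Agent.P251.St.SHCat

theorem main (T : SHCat) (S : Susp T) :
    (∀ E X : T.C, ∃ (Y : T.C) (f : Hom X Y), IsLoc E f) ∧
    (∃ K : ℕ → RingSp T, (∀ i, IsMorava S (K i) 5 i) ∧ ∃ E : T.C, IsClassE 5 K E) ∧
    NoRetraction S 5 5 ∧ NoRetractionJW S 5 5 := by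
  have H := (statement2_of
    (fun T F => by
      have := CategoryTheory.locallySmall_self.{0} T.C
      exact Z.noRetraction_of_statement M.MU_univ F)
    (fun T F n => by
      have := CategoryTheory.locallySmall_self.{0} T.C
      have : Fact (Nat.Prime 5) := ⟨by norm_num⟩
      exact X.exists_isMorava F (by norm_num) n)).2 T S
  exact ⟨H.1, (exists_classE_iff S 5 5).2 H.2.1, (noRetraction_iff S 5 5).2 H.2.2,
    (noRetractionJW_iff S 5 5).2 (P251Z.noRetractionJW S)⟩

end Vale.Agent.P251CY
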